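import Vale.Agent.Lib.P002.G1Defs
import Vale.Agent.Lib.P002.helper11.UlFrame

/-!
# P002, job G1-I (second copy of helper6): properties of the polynomial frame

In the frame `g = g0 * u` (`g0` the chain frame of the commutator, `u` the polynomial frame of
`adjugate g0 * (B * A) * g0`) the commutator is upper triangular with diagonal `δ`, and `B * A`
with columns reversed is upper triangular.
-/

namespace Vale.Agent.Lib.P002.H6

open Matrix
open Vale.Agent.Lib.P002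

/-- The abstract form: `g0` conjugates `K` to an upper triangular `J` with diagonal `δ`, `u` is
upper triangular, and `adjugate g0 * BA * g0 * u` with columns reversed is upper triangular. -/
theorem frame_aux {n : ℕ} (δ : Fin n → ℂ) (K BA Bm g0 u J : Matrix (Fin n) (Fin n) ℂ)
    (hmul : K * g0 = g0 * J) (hJ1 : ∀ i j, j < i → J i j = 0) (hJ2 : ∀ i, J i i = δ i)
    (hut : ∀ i j, j < i → u i j = 0)
    (hNu : ∀ i j, j < i → (g0.adjugate * BA * g0 * u * revM ℂ n) i j = 0)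
    (hdet : (g0 * u).det ≠ 0) :
    (∀ i j, j < i → ((g0 * u)⁻¹ * K * (g0 * u)) i j = 0) ∧
    (∀ i, ((g0 * u)⁻¹ * K * (g0 * u)) i i = δ i) ∧
    (∀ i j, j < i → ((g0 * u)⁻¹ * BA * (g0 * u) * revM ℂ n) i j = 0) ∧
    (g0 * u).adjugate * Bm * (g0 * u) * revM ℂ n =
      (g0 * u).det • ((g0 * u)⁻¹ * Bm * (g0 * u) * revM ℂ n) ∧
    g0.det ≠ 0 := by
  have hdet' : g0.det * u.det ≠ 0 := by rwa [Matrix.det_mul] at hdet
  have hg0det : g0.det ≠ 0 := left_ne_zero_of_mul hdet'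
  have hudet : u.det ≠ 0 := right_ne_zero_of_mul hdet'
  have hud : ∀ i, u i i ≠ 0 := by
    have h := hudet
    rw [det_ut hut] at h
    exact fun i => (Finset.prod_ne_zero_iff.mp h) i (Finset.mem_univ i)
  obtain ⟨hadj_ut, -⟩ := ut_adjugate_ne hut hud
  have huinv : u⁻¹ = (u.det)⁻¹ • u.adjugate := by
    rw [Matrix.inv_def, Ring.inverse_eq_inv']
  have huinv_ut : ∀ i j, j < i → u⁻¹ i j = 0 := by
    intro i j hij
    rw [huinv, Matrix.smul_apply, hadj_ut i j hij, smul_zero]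
  have hg0u : IsUnit g0.det := isUnit_iff_ne_zero.mpr hg0det
  have huu : IsUnit u.det := isUnit_iff_ne_zero.mpr hudet
  have hginv : (g0 * u)⁻¹ = u⁻¹ * g0⁻¹ := Matrix.mul_inv_rev g0 u
  have hg0inv : g0⁻¹ = (g0.det)⁻¹ • g0.adjugate := by
    rw [Matrix.inv_def, Ring.inverse_eq_inv']
  have hconj : (g0 * u)⁻¹ * K * (g0 * u) = u⁻¹ * J * u := by
    rw [hginv]
    calc u⁻¹ * g0⁻¹ * K * (g0 * u) = u⁻¹ * (g0⁻¹ * (K * g0)) * u := by
          simp only [Matrix.mul_assoc]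
      _ = u⁻¹ * (g0⁻¹ * (g0 * J)) * u := by rw [hmul]
      _ = u⁻¹ * J * u := by
          rw [← Matrix.mul_assoc g0⁻¹, Matrix.nonsing_inv_mul g0 hg0u, Matrix.one_mul]
  have hdiag1 : ∀ i, u⁻¹ i i * u i i = 1 := by
    intro i
    rw [← ut_mul_diag huinv_ut hut i, Matrix.nonsing_inv_mul u huu, Matrix.one_apply_eq]
  have h3 : (g0 * u)⁻¹ * BA * (g0 * u) * revM ℂ n =
      (g0.det)⁻¹ • (u⁻¹ * (g0.adjugate * BA * g0 * u * revM ℂ n)) := by
    rw [hginv, hg0inv]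
    simp only [Matrix.mul_assoc, Matrix.smul_mul, Matrix.mul_smul]
  have hadj : (g0 * u).adjugate = (g0 * u).det • (g0 * u)⁻¹ := by
    rw [Matrix.inv_def, Ring.inverse_eq_inv', smul_smul, mul_inv_cancel₀ hdet, one_smul]
  refine ⟨?_, ?_, ?_, ?_, hg0det⟩
  · intro i j hij
    rw [hconj]
    exact ut_mul (ut_mul huinv_ut hJ1) hut i j hij
  · intro i
    rw [hconj, ut_mul_diag (ut_mul huinv_ut hJ1) hut i, ut_mul_diag huinv_ut hJ1 i, hJ2 i,
      mul_assoc, mul_comm (δ i), ← mul_assoc, hdiag1 i, one_mul]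
  · intro i j hij
    rw [h3, Matrix.smul_apply, ut_mul huinv_ut hNu i j hij, smul_zero]
  · rw [hadj]
    simp only [Matrix.smul_mul]

theorem g1_frame_props {k : ℕ} (δ v : Fin (k + 1) → ℂ) (A B : Matrix (Fin (k + 1)) (Fin (k + 1)) ℂ)
    (hK : (cmm A B).charpoly = ∏ i, (Polynomial.X - Polynomial.C (δ i)))
    (hdet : (g1Frame δ v A B).det ≠ 0) :
    (∀ i j, j < i → ((g1Frame δ v A B)⁻¹ * cmm A B * g1Frame δ v A B) i j = 0) ∧
    (∀ i, ((g1Frame δ v A B)⁻¹ * cmm A B * g1Frame δ v A B) i i = δ i) ∧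
    (∀ i j, j < i →
      ((g1Frame δ v A B)⁻¹ * (B * A) * g1Frame δ v A B * revM ℂ (k + 1)) i j = 0) ∧
    g1Mat δ v A B = (g1Frame δ v A B).det •
      ((g1Frame δ v A B)⁻¹ * B * g1Frame δ v A B * revM ℂ (k + 1)) ∧
    (jorU δ (cmm A B) v).det ≠ 0 :=
  frame_aux δ (cmm A B) (B * A) B (jorU δ (cmm A B) v)
    (ulF ((jorU δ (cmm A B) v).adjugate * (B * A) * jorU δ (cmm A B) v))
    (Matrix.diagonal δ + shU ℂ (k + 1)) (mul_jorU δ (cmm A B) hK v) (bidU_shape δ).1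
    (bidU_shape δ).2 (H11.ulF_ut _) (H11.ulF_mul _) hdet

end Vale.Agent.Lib.P002.H6
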